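import Vale.Agent.P243.MathlibUsed

open MeasureTheory
open scoped ENNReal

namespace Vale.Agent.P243.Plain

/-- An orthonormal pair `e, f` of vectors of Euclidean three-space `Fin 3 → ℝ`. It spans a plane
through the origin, and every such plane arises in this way. -/
structure Frame where
  e : Fin 3 → ℝ
  f : Fin 3 → ℝ
  norm_e : e ⬝ᵥ e = 1
  norm_f : f ⬝ᵥ f = 1
  orthogonal : e ⬝ᵥ f = 0

/-- Orthogonal projection onto the plane of the frame, in its orthonormal coordinates. -/
def Frame.proj (F : Frame) (x : Fin 3 → ℝ) : ℝ × ℝ := (F.e ⬝ᵥ x, F.f ⬝ᵥ x)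

/-- The cylinder over the planar set `B`: all points of space that project into `B`. -/
def Frame.cylinder (F : Frame) (B : Set (ℝ × ℝ)) : Set (Fin 3 → ℝ) := {x | F.proj x ∈ B}

/-- The area of the orthogonal projection of `K` onto the plane of the frame. -/
noncomputable def Frame.shadow (F : Frame) (K : Set (Fin 3 → ℝ)) : ℝ :=
  (volume (F.proj '' K)).toReal

/-- A convex body: a compact convex set with nonempty interior. -/
def IsConvexBody (K : Set (Fin 3 → ℝ)) : Prop :=
  IsCompact K ∧ Convex ℝ K ∧ (interior K).Nonempty

/-- The smallest area of an orthogonal projection of `K` onto a plane. -/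
noncomputable def Amin (K : Set (Fin 3 → ℝ)) : ℝ := ⨅ F : Frame, F.shadow K

/-- A finite covering of `K` by cylinders over Lebesgue measurable planar bases of finite area. -/
structure CylinderCovering (K : Set (Fin 3 → ℝ)) where
  m : ℕ
  frame : Fin m → Frame
  base : Fin m → Set (ℝ × ℝ)
  measurable_base : ∀ i, NullMeasurableSet (base i) volume
  finite_area : ∀ i, volume (base i) ≠ ∞
  covers : K ⊆ ⋃ i, (frame i).cylinder (base i)

/-- The total base area of a covering. -/
noncomputable def CylinderCovering.totalArea {K : Set (Fin 3 → ℝ)} (C : CylinderCovering K) : ℝ :=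
  ∑ i, (volume (C.base i)).toReal

/-- The directionwise relative area of a covering. -/
noncomputable def CylinderCovering.relArea {K : Set (Fin 3 → ℝ)} (C : CylinderCovering K) : ℝ :=
  ∑ i, (volume (C.base i)).toReal / (C.frame i).shadow K

/-- The infimum of the total base area divided by `Amin`. -/
noncomputable def c3 : ℝ :=
  sInf {r : ℝ | ∃ K, IsConvexBody K ∧ ∃ C : CylinderCovering K, r = C.totalArea / Amin K}

/-- The infimum of the directionwise relative area. -/
noncomputable def r3 : ℝ :=
  sInf {r : ℝ | ∃ K, IsConvexBody K ∧ ∃ C : CylinderCovering K, r = C.relArea}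

end Vale.Agent.P243.Plain
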